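import Vale.Agent.P014Y.Kt.St
import Vale.Agent.P014Y.F.Pt.Kd
import Vale.Agent.P014T.Kt.An2
import Vale.Agent.P014T.Kx.Cvt
import Vale.Agent.P014U.Gt.Elc

/-! # P014Y, row KAN: the index of the Heegner point of the frame -/

set_option autoImplicit false
set_option linter.all false

open NumberField
open scoped NumberTheorySymbols Real Classical

noncomputable section

namespace Vale.Agent.P014Y.Kt

open Vale.Agent.P014U
open Vale.Agent.P022 (Qb GQ)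
open Vale.Agent.P022E.GW (Ov Fb)
open Vale.Agent.P014 (realPeriod)
open Vale.Agent.P014T (IsBasisModTorsion regulator)
open P014T.Sm P014T.Lk P014T.Cn P014T.Kx.Tw P014T.Kt.An
open P014T.An (M0 M1)
open F (Crv Fld sd hq)
open P004F.Qx (Fk)
open P004T (ds ds_spec)
open P004N (cE RN NF)
open P004N.T8 (inc)
open P004N.H169 (IsLh)
open P004M.TE (Pt ga ga_mul al)
open P004Z.H (hh)
open P014T.Wm (Fx)
open P014T.Z (L0)
open P014T.Zd (L1d)
open Kx (Tw)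

namespace An

/-- the Euler factors of a twist -/
theorem eu' {N m : ℕ} {G : UpperHalfPlane → ℂ} {a : ℕ → ℤ} {T : Finset ℕ}
    (h : RN (N * m ^ 2) G fun n => a n * J(n | m)) (m1 : 0 < m) (hT : ∀ p ∈ T, p.Prime)
    {l : List ℕ} (nd : l.Nodup) (hl : ∀ p, p ∈ l ↔ p ∈ T ∧ ¬ p ∣ m) (hs : ∀ p ∈ l, J(p | m) = 1) :
    l.prod * ∏ p ∈ T, P1 (fun n => ((a n * J(n | m) : ℤ) : ℝ)) p =
      ((l.map fun p => p - a p + if p ∣ N then 0 else 1).prod : ℤ) := by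
  have e : l.toFinset = T.filter fun p => ¬ p ∣ m := by ext p; simp [hl]
  rw [← List.prod_toFinset _ nd, show l.prod = ∏ p ∈ l.toFinset, id p by
      rw [List.prod_toFinset _ nd, List.map_id],
    ← Finset.prod_filter_mul_prod_filter_not T (· ∣ m), Finset.prod_eq_one (s := T.filter (· ∣ m)),
    one_mul, ← e]
  · push_cast
    rw [← Finset.prod_mul_distrib]
    refine Finset.prod_congr rfl fun p k => ?_
    have k' := List.mem_toFinset.1 k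
    obtain ⟨k1, k2⟩ := (hl p).1 k'
    have q : (p : ℝ) ≠ 0 := Nat.cast_ne_zero.2 (hT p k1).ne_zero
    have := P1_rn h (hT p k1)
    push_cast at this
    rw [this, hs p k', if_congr ((hT p k1).dvd_mul.trans (or_iff_left fun d =>
      k2 ((hT p k1).dvd_of_dvd_pow d))) rfl rfl, id]
    field_simp
    ring
  · intro p k
    obtain ⟨k1, k2⟩ := Finset.mem_filter.1 k
    have q : (p : ℝ) ≠ 0 := Nat.cast_ne_zero.2 (hT p k1).ne_zero
    have : NeZero m := ⟨by omega⟩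
    rw [P1_rn h (hT p k1), if_pos ((dvd_pow k2 two_ne_zero).mul_left _),
      jacobiSym.eq_zero_iff_not_coprime.2 (by
        rw [Int.gcd_natCast_natCast, Nat.gcd_eq_left k2]; exact (hT p k1).one_lt.ne')]
    simp [q]

variable [Pp] (e : Crv) {p : ℕ}

theorem pr : ∀ p ∈ e.S.toFinset, p.Prime := fun p m => (e.ov p (List.mem_toFinset.1 m)).1

theorem good (hp : p.Prime) (h : p ∉ e.S) : ¬ (p : ℤ) ∣ 2 * (4 * e.A ^ 3 + 27 * e.B ^ 2) := fun d =>
  ((Nat.prime_iff_prime_int.1 hp).dvd_or_dvd d).elim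
    (fun d => e.ne_two h ((Nat.prime_dvd_prime_iff_eq hp Nat.prime_two).1 (by exact_mod_cast d)))
    (e.bad p hp h).2.1

theorem al_a (hp : p.Prime) (h : p ∉ e.S) : al e.A e.B p = e.a p := by
  have : Fact p.Prime := ⟨hp⟩
  obtain ⟨P, o⟩ := P004R.Mu.ex_pl hp
  obtain ⟨g, f⟩ := P022D.W.exists_phi o.1 o.2.1 o.2.2
  have := ((P014U.Top.elc e.A e.B e.par.disc p hp (e.ne_pp h)).2.resolve_right fun c =>
    let ⟨g, i, j⟩ := (c.2 P o).1
    j (e.r_inert o h i)).2 P o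
  exact Int.cast_injective ((this.2 g f).symm.trans ((e.bad p hp h).2.2 g ⟨P, o.2.1, o.2.2, f⟩))

/-- the coefficients of a twist -/
theorem at_tw {E : WeierstrassCurve ℚ} {m : ℕ} (ho : Odd m) {A B : ℤ} (hA : A = e.A * ds m ^ 2)
    (hB : B = e.B * ds m ^ 3) (h : Md E A B 1 0 0 0) : ∃ M, At E (fun n => e.a n * J(n | m)) (M * m) ∧
      ∀ p : ℕ, p.Prime → p ∣ M → p ∈ e.S := by
  subst hA hB
  have m0 : ds m ≠ 0 := fun c => by have := ds_spec ho; omega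
  have h0 : Md (⟨0, 0, 0, e.A, e.B⟩ : WeierstrassCurve ℚ) e.A e.B 1 0 0 0 := P014T.Vc.Ch.refl _
  have := ell h0 e.par.disc
  have := ell h ((tq m0 _ _).hD e.par.disc)
  have s0 : ∏ p ∈ e.S.toFinset, p ≠ 0 := Finset.prod_ne_zero_iff.2 fun p m => (pr e p m).ne_zero
  have b : bd e.A e.B ∣ e.N * bd e.A e.B * ∏ p ∈ e.S.toFinset, p := (dvd_mul_left _ _).mul_right _
  refine ⟨_, At.ds h0 ho h (at_of h0 e.rn (mul_ne_zero (mul_ne_zero e.rn.pos.ne'
    (bd_ne e.par.disc)) s0) ((dvd_mul_right _ _).mul_right _) b fun p hp k => al_a e hp fun c =>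
      k ((Finset.dvd_prod_of_mem _ (List.mem_toFinset.2 c)).mul_left _)) b, fun p hp k => ?_⟩
  by_contra c
  rcases hp.dvd_mul.1 k with k | k
  · exact (hp.dvd_mul.1 k).elim (e.bad p hp c).1 fun k => good e hp c (Int.natCast_dvd.2 k)
  · exact c (List.mem_toFinset.1 (Nat.primeFactors_prod (pr e) ▸ Nat.mem_primeFactors.2 ⟨hp, k, s0⟩))

/-- all primes of `S` split -/
structure Sp (m : ℕ) : Prop where
  odd : Odd m
  sq : Squarefree m
  one : ∀ p ∈ e.S, J(p | m) = 1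

variable {e} {m : ℕ}

theorem sp_one : Sp e 1 := ⟨odd_one, squarefree_one, fun _ _ => jacobiSym.one_right _⟩

theorem Sp.nd (s : Sp e m) (h : p ∈ e.S) : ¬ p ∣ m := fun d => by
  have : NeZero m := ⟨s.odd.pos.ne'⟩
  have := s.one p h
  rw [jacobiSym.eq_zero_iff_not_coprime.2 (by
    rw [Int.gcd_natCast_natCast, Nat.gcd_eq_left d]; exact (e.ov p h).1.one_lt.ne')] at this
  exact zero_ne_one this

theorem Sp.cop (s : Sp e m) : e.N.Coprime m := Nat.coprime_of_dvd fun p h d d' =>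
  (e.bad p h fun k => s.nd k d').1 d

theorem Sp.lev (s : Sp e m) : J(e.N | m) = 1 :=
  P004Z.Gq.J_all _ e.rn.pos.ne' fun p q d => s.one p (by_contra fun k => (e.bad p q k).1 d)

theorem sp_adm {δ : ℕ} (h : e.Adm δ) : Sp e δ ∧ ds δ = -δ ∧ J(-e.N | δ) = -1 := by
  have m8 := h.m8
  have o : Odd δ := Nat.odd_iff.2 (by omega)
  have s : Sp e δ := ⟨o, h.sq, fun p k => by
    rcases eq_or_ne p 2 with rfl | p2
    · rw [Nat.cast_ofNat, jacobiSym.at_two o, ZMod.χ₈_nat_eq_if_mod_eight, if_neg (by omega),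
        if_pos (by omega)]
    · rw [← P004Z.Gq.J_flip (by omega) ((e.ov p k).1.odd_of_ne_two p2), h.spl p k p2]⟩
  refine ⟨s, by have := ds_spec o; omega, ?_⟩
  rw [neg_eq_neg_one_mul, jacobiSym.mul_left, s.lev, jacobiSym.at_neg_one o,
    ZMod.χ₄_nat_three_mod_four (by omega), mul_one]

/-- the values of the depleted function of a twist -/
theorem vt (s : Sp e m) {ε : ℝ} (nf : NF e.N e.G (fun n => (e.a n : ℝ)) ε) {E : WeierstrassCurve ℚ}
    {A B : ℤ} (hA : A = e.A * ds m ^ 2) (hB : B = e.B * ds m ^ 3) (h : Md E A B 1 0 0 0) {L : ℂ → ℂ}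
    (hL : IsLh (inc (∏ p ∈ e.S.toFinset ∪ m.primeFactors, p) (cE E)) L) : ∃ X : ℝ,
    e.S.prod * X = ((e.S.map fun p => p - e.a p + if p ∣ e.N then 0 else 1).prod : ℤ) ∧
    L 1 = X * (2 * π * L0 e.a m) ∧ (L 1 ≠ 0 → ε * (J(-e.N | m) : ℤ) = -1) ∧
    (analyticOrderAt L 1 = 1 → L0 e.a m = 0 ∧ ε * (J(-e.N | m) : ℤ) = 1 ∧
      deriv L 1 = X * (2 * π * L1d e.a m)) := by
  obtain ⟨G, n⟩ := nf_tw nf s.odd s.sq s.cop
  have r := P004T.rn_of_nf n
  obtain ⟨M, a, k⟩ := at_tw e s.odd hA hB h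
  have pr' : ∀ p ∈ e.S.toFinset ∪ m.primeFactors, p.Prime := fun p m =>
    (Finset.mem_union.1 m).elim (pr e p) Nat.prime_of_mem_primeFactors
  obtain ⟨l0, l1⟩ := vl r a pr' (fun p hp d => Finset.mem_union.2 ((hp.dvd_mul.1 d).imp
    (fun d => List.mem_toFinset.2 (k p hp d))
    fun d => Nat.mem_primeFactors.2 ⟨hp, d, s.odd.pos.ne'⟩)) hL
  have sg := P014T.An.sign r.pos (rn_gd r) r.qe n.al
  refine ⟨_, eu' r s.odd.pos pr' e.nd (fun p => ⟨fun k => ⟨Finset.mem_union_left _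
    (List.mem_toFinset.2 k), s.nd k⟩, fun k => List.mem_toFinset.1 ((Finset.mem_union.1 k.1).resolve_right
      fun c => k.2 (Nat.dvd_of_mem_primeFactors c))⟩) s.one, l0,
    fun z => sg.1 (right_ne_zero_of_mul (l0 ▸ z)), fun o => ?_⟩
  obtain ⟨z0, z1, l⟩ := l1 o
  exact ⟨(mul_eq_zero.1 z0).resolve_left (by simp), sg.2 z0 z1, l⟩

variable (b : Fld e) {T : Finset GQ}

theorem ga_pK (hT : b.Tv 1 T) {g : GQ} (hg : g ∈ b.Γ) : ga g (pK b T) = pK b T := by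
  have f : P004F.Es.Fr b.Γ (P004K.Hc b.j 1) T (fun _ => (1 : ℤ)) :=
    ⟨inf_le_left, hT.1, hT.2, fun _ _ _ _ => rfl, fun _ _ => rfl⟩
  rw [pK, map_sum, ← f.sum (p := fun u => ga u (b.Y 1)) (fun u a h m => by
    rw [ga_mul, b.fx _ one_pos (Nat.coprime_one_left _) h m]) hg]
  exact Finset.sum_congr rfl fun u _ => by rw [ga_mul]

/-- from the field to the rationals -/
theorem desc {A B A' B' : ℤ} {t : Pt A B ≃+ Pt A' B'} (q : Tw (-b.δ') t) (fin : Finite (Fx A' B' ⊤))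
    {y : Pt A B} (hy : y ∈ Fx A B b.Γ) :
    y + ga b.c y ∈ Fx A B ⊤ ∧ IsOfFinAddOrder (y - ga b.c y) := by
  have c := b.c_out
  have i : ∀ g ∈ b.Γ, ga g (ga b.c y) = ga b.c y := fun g k => by
    rw [← ga_mul, show g * b.c = b.c * (b.c⁻¹ * g * b.c⁻¹⁻¹) by group, ga_mul,
      hy _ (b.Γ_conj k _)]
  have o : ∀ g ∉ b.Γ, ga g y = ga b.c y ∧ ga g (ga b.c y) = y := fun g k =>
    ⟨by rw [show g = b.c * (b.c⁻¹ * g) by group, ga_mul,
      hy _ (b.mul_out (fun m => c (inv_mem_iff.1 m)) k)],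
    by rw [← ga_mul, hy _ (b.mul_out k c)]⟩
  refine ⟨fun g _ => ?_, t.injective.isOfFinAddOrder_iff (f := t.toAddMonoidHom).1
    ((Fx A' B' ⊤).subtype.isOfFinAddOrder (isOfFinAddOrder_of_finite ⟨_, fun g _ => ?_⟩))⟩
  · by_cases k : g ∈ b.Γ
    · rw [map_add, hy g k, i g k]
    · rw [map_add, (o g k).1, (o g k).2, add_comm]
  · change ga g (t _) = t _
    rw [q, map_sub]
    by_cases k : g ∈ b.Γ
    · rw [hy g k, i g k, sd_eq_one.2 ((b.kd.gk g).1 k), one_smul]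
    · rw [(o g k).1, (o g k).2, (sd_or _ g).resolve_left fun s => k ((b.kd.gk g).2 (sd_eq_one.1 s)),
        neg_smul, one_smul, neg_sub]

/-- **the analytic half** -/
theorem kan0 (gz : GZF) {d d' A B A' B' : ℤ} {S S' : Finset ℕ} {E E' : WeierstrassCurve ℚ}
    (h : Md E A B 1 0 0 0) (h' : Md E' A' B' 1 0 0 0) {L L' : ℂ → ℂ} {Q : Fin 1 → E.toAffine.Point}
    (hT : b.Tv 1 T) (w : Ord b d d' A B A' B' S S') (q : Tq d e.A e.B A B) (q' : Tq d' e.A e.B A' B')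
    (hL : IsLh (inc (∏ p ∈ S, p) (cE E)) L) (o : analyticOrderAt L 1 = 1)
    (hL' : IsLh (inc (∏ p ∈ S', p) (cE E')) L') (o' : analyticOrderAt L' 1 = 0)
    (hQ : IsBasisModTorsion E Q) (fin : Finite (Fx A' B' ⊤)) :
    tw q (pK b T) ∈ Fx A B b.Γ ∧ ∃ n : ℤ, IsOfFinAddOrder (2 • tw q (pK b T) - n • up h (Q 0)) ∧
      2 * (if 4 * A ^ 3 + 27 * B ^ 2 < 0 then 2 else 1 : ℕ) * (e.S.prod : ℂ) ^ 4 *
        (deriv L 1 * L' 1) = (n * nd e) ^ 2 * (realPeriod E * regulator E Q * realPeriod E' : ℝ) := by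
  have d1 := b.pos
  obtain ⟨sp, dd, jj⟩ := sp_adm b.adm
  have hD := q.hD e.par.disc
  have := ell h hD
  have hy : tw q (pK b T) ∈ Fx A B b.Γ := fun g k => by
    rw [ga_tw0 q (by
      rcases w.or with ⟨rfl, -⟩ | ⟨rfl, -⟩
      exacts [P004S.nu_one_left g, (b.kd.gk g).1 k]), ga_pK b hT k]
  have tt := P014T.Kx.Cv.tw_trans q.ne q'.ne (P014T.Kx.Cv.tw_symm (P014T.Kx.Cv.tw_tw q))
    (P014T.Kx.Cv.tw_tw q')
  rw [show d * d' = -b.δ' by rcases w.or with ⟨rfl, rfl, -⟩ | ⟨rfl, rfl, -⟩ <;> simp] at tt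
  obtain ⟨y1, y2⟩ := desc b tt fin hy
  obtain ⟨y, e0⟩ : _ ∈ (up h).range := range_up h ▸ y1
  obtain ⟨n, hn⟩ := (basis_one.1 hQ).2 y
  have tor : IsOfFinAddOrder (2 • tw q (pK b T) - n • up h (Q 0)) := by
    have := ((up h).isOfFinAddOrder hn).add y2
    rwa [map_sub, map_zsmul, e0, sub_add_eq_add_sub, add_add_sub_cancel, ← two_nsmul] at this
  refine ⟨hy, n, tor, ?_⟩
  obtain ⟨V, hV⟩ := P004Z.Ar.ex_plc P004Z.Fin.ext
  have pl := P014T.Gl.pl_vq hV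
  have ht : 8 * hh (P014T.Gl.vq V) (pK b T) = n ^ 2 * regulator E Q := by
    have a := P014T.Hi.hh_add pl (P014T.Wm.hD_Qb hD) tor (n • up h (Q 0))
    rw [add_sub_cancel, hh_nsmul pl (P014T.Wm.hD_Qb hD), hh_zsmul pl (P014T.Wm.hD_Qb hD),
      P014T.Hi.hh_lin pl (P014T.Wm.hD_Qb hD) (P014T.Wm.hD_Qb e.par.disc) (tw q) (w := d) (r := 0)
        (Int.cast_ne_zero.2 q.ne) fun y k => by rw [xp_tw q k, add_zero]] at a
    rw [reg_one, can_eq pl h]
    push_cast at a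
    linarith
  obtain ⟨ε, nf⟩ := P004Z.Ar.nf_of_rn e.rn
  have l0 := (P014T.An.ord_le (hL'.1 1 P014T.An.m1)).1.1 o'
  have s1 : ds 1 = 1 := by have := ds_spec odd_one; omega
  have u1 : e.S.toFinset = e.S.toFinset ∪ Nat.primeFactors 1 := by simp
  obtain ⟨X, X', c, x, x', u1, u0, l1, l0, g, pe⟩ : ∃ (X X' c : ℝ) (x x' : ℂ),
      e.S.prod * X = ((e.S.map fun p => p - e.a p + if p ∣ e.N then 0 else 1).prod : ℤ) ∧
      e.S.prod * X' = ((e.S.map fun p => p - e.a p + if p ∣ e.N then 0 else 1).prod : ℤ) ∧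
      deriv L 1 = X * (2 * π * x) ∧ L' 1 = X' * (2 * π * x') ∧
      (2 * e.w ^ 2 * c * hh (P014T.Gl.vq V) (pK b T) : ℝ) = π ^ 2 * (√b.δ' : ℝ) * x * x' ∧
      √b.δ' * (realPeriod E * realPeriod E') =
        2 * (if 4 * A ^ 3 + 27 * B ^ 2 < 0 then 2 else 1) * c := by
    rcases w.or with ⟨rfl, rfl, rfl, rfl⟩ | ⟨rfl, rfl, rfl, rfl⟩
    · obtain ⟨X, a1, -, -, a2⟩ := vt sp_one nf (s1.symm ▸ q.a) (s1.symm ▸ q.b) h (u1 ▸ hL)
      obtain ⟨X', b1, b2, -⟩ := vt sp nf (dd.symm ▸ q'.a) (dd.symm ▸ q'.b) h' hL'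
      obtain ⟨a5, a3, a4⟩ := a2 o
      obtain ⟨u, v, cv, pe⟩ := per e.par.lat e.par.g2_eq e.par.g3_eq one_ne_zero d1 q.a q.b
        (by rw [q'.a, q.a]; ring) (by rw [q'.b, q.b]; ring) h h'
      obtain rfl : ε = 1 := by simpa using a3
      exact ⟨X, X', _, _, _, a1, b1, a4, b2, (gz e b _ V T ⟨u, v, cv, rfl⟩ hV hT).1 nf.al a5,
        by simpa using pe⟩
    · obtain ⟨X, a1, -, -, a2⟩ := vt sp nf (dd.symm ▸ q.a) (dd.symm ▸ q.b) h hL
      obtain ⟨X', b1, b2, b3, -⟩ := vt sp_one nf (s1.symm ▸ q'.a) (s1.symm ▸ q'.b) h' (u1 ▸ hL')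
      obtain ⟨u, v, cv, pe⟩ := per e.par.lat e.par.g2_eq e.par.g3_eq one_ne_zero d1 q'.a q'.b
        (by rw [q'.a, q.a]; ring) (by rw [q'.b, q.b]; ring) h' h
      obtain rfl : ε = -1 := by simpa using b3 l0
      have sg : 4 * A' ^ 3 + 27 * B' ^ 2 < 0 ↔ 4 * A ^ 3 + 27 * B ^ 2 < 0 := by
        rw [q.disc, q'.disc, one_pow, one_mul]
        have : (0 : ℤ) < (-b.δ') ^ 6 := Even.pow_pos (by decide) q.ne
        exact ⟨mul_neg_of_pos_of_neg this,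
          fun e => by_contra fun c => absurd e (not_lt.2 (mul_nonneg this.le (not_lt.1 c)))⟩
      exact ⟨X, X', _, _, _, a1, b1, (a2 o).2.2, b2,
        ((gz e b _ V T ⟨u, v, cv, rfl⟩ hV hT).2 nf.al).trans (mul_right_comm _ _ _),
        by simpa [sg, mul_comm (realPeriod E)] using pe⟩
  have n0 : ((√b.δ' : ℝ) : ℂ) ≠ 0 :=
    Complex.ofReal_ne_zero.2 (Real.sqrt_pos.2 (Nat.cast_pos.2 d1)).ne'
  rw [l1, l0, nd]
  generalize (e.S.map fun p => p - e.a p + if p ∣ e.N then 0 else 1).prod = F at u1 u0 ⊢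
  generalize e.S.prod = R at u1 u0 ⊢
  have u1' := congrArg Complex.ofReal u1
  have u0' := congrArg Complex.ofReal u0
  have pe' := congrArg Complex.ofReal pe
  have ht' := congrArg Complex.ofReal ht
  refine mul_left_cancel₀ n0 ?_
  generalize hk : (if 4 * A ^ 3 + 27 * B ^ 2 < 0 then 2 else 1 : ℕ) = k
  rw [show (if 4 * A ^ 3 + 27 * B ^ 2 < 0 then 2 else 1 : ℝ) = k by
    rw [← hk]; split_ifs <;> simp] at pe'
  push_cast at u1' u0' pe' ht' g ⊢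
  rw [← u1'] at u0' ⊢
  linear_combination -8 * k * R ^ 4 * X * X' * g + 2 * k * c * e.w ^ 2 * R ^ 4 * X * X' * ht' -
    n ^ 2 * e.w ^ 2 * R ^ 4 * X ^ 2 * regulator E Q * pe' +
    2 * k * c * e.w ^ 2 * R ^ 3 * X * n ^ 2 * regulator E Q * u0'

end An

/-- **row `KAN`** -/
theorem kan [Pp] (gz : GZF) : KAN := fun e b T d d' A B A' B' S S' h L L' Q hT w hL o hL' o' hQ fin => by
  have d1 := b.pos
  have dn : d ≠ 0 ∧ d' ≠ 0 ∧ ¬ (pp : ℤ) ∣ d := by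
    rcases w.or with ⟨rfl, rfl, -⟩ | ⟨rfl, rfl, -⟩
    · exact ⟨one_ne_zero, by omega, fun c => pp_prime.one_lt.ne'
        (by exact_mod_cast Int.eq_one_of_dvd_one (by positivity) c)⟩
    · exact ⟨by omega, one_ne_zero, fun c => b.out_S pp_prime
        (Int.natCast_dvd_natCast.1 (dvd_neg.1 c)) e.pm⟩
  have q : Tq d e.A e.B A B := ⟨dn.1, w.a, w.b⟩
  have q' : Tq d' e.A e.B A' B' := ⟨dn.2.1, w.a', w.b'⟩
  obtain ⟨k1, n, k2, k3⟩ := An.kan0 b gz h (P014T.Lc.md_sh A' B') hT w q q' hL o hL' o' hQ fin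
  have v := e.ov pp e.pm
  refine ⟨tw q, tw q', n, P014T.Kx.Cv.tw_tw q, P014T.Kx.Cv.tw_tw q',
    fk_tw q v.2.1 fun c => v.2.1.ne_top ((Ideal.eq_top_iff_one _).2 ?_), k1, k2, k3⟩
  obtain ⟨x, y, z⟩ := (Nat.prime_iff_prime_int.1 pp_prime).coprime_iff_not_dvd.2 dn.2.2
  have z' : (x : 𝓞 Qb) * pp + y * d = 1 := by exact_mod_cast congrArg (Int.cast : ℤ → 𝓞 Qb) z
  exact z' ▸ (e.P pp).add_mem ((e.P pp).mul_mem_left _ v.2.2) ((e.P pp).mul_mem_left _ c)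

end Vale.Agent.P014Y.Kt
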