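import Vale.Agent.P014Y.Kt.Cnt
import Vale.Agent.P014Y.Kx.All

/-! # P014Y, block KTOP: the count from the analytic half -/

namespace Vale.Agent.P014Y.Kt

open Vale.Agent.P004K Vale.Agent.P014U

variable [Pp]

theorem hp1_all : HP1 := hp1 x_rc1

theorem cnt_all (kan : KAN) : CNT := cnt Kx.kx_all Kx.kd_all kan x_rc1

end Vale.Agent.P014Y.Kt
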