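import Vale.Agent.P014Y.Kt.Brg
import Vale.Agent.P014Y.Kt.An
import Vale.Agent.P014Y.Kt.Cnt1
import Vale.Agent.P014Y.Z2.All
import Vale.Agent.P014T.Z.All

/-! # P014Y, block KTOP: the count, no hypothesis -/

namespace Vale.Agent.P014Y.Kt

open Vale.Agent.P014U

variable [Pp]

theorem gzf_all : GZF := gzf P014T.Z.gzx_all Z2.gz0_all

theorem kan_all : KAN := kan gzf_all

theorem cnt0 : CNT := cnt_all kan_all

end Vale.Agent.P014Y.Kt
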