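import Vale.Agent.P014Y.Kt.St
import Vale.Agent.P014T.Zd.Bdx
import Vale.Agent.P014T.Z.Act1

/-! # P014Y, block KTOP: row BRG -/

set_option autoImplicit false
set_option linter.all false

open UpperHalfPlane CongruenceSubgroup NumberField
open scoped MatrixGroups NumberTheorySymbols Classical

noncomputable section

namespace Vale.Agent.P014Y.Kt

open Vale.Agent.P022 P027H P027M.M P004K P004K.Hg
open P004Z (Fm evq disc fa Bd Reps)
open P004Z.Hd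
open P014T.Z (Hg B0)
open P004M.TE (Pt ga)

namespace Bg

variable {O : Type} [CommRing O] {J : O →+* ℂ} {I : Ideal O} {η θ ω : O} {N δ δ' c : ℕ} {β : ℤ}

/-- the data of the rows -/
structure Dt (J : O →+* ℂ) (N δ δ' : ℕ) (β : ℤ) (η : O) (y : ℂ) (n : ℤ) : Prop where
  d : Hg N δ' β
  one : δ = 1
  b : Bs J η
  sq : η ^ 2 = (-β : ℤ) * η - n
  n4 : 4 * n = β ^ 2 + δ'
  dv : (N : ℤ) ∣ n
  y2 : y = δ * (2 * J η + β)

theorem ex_dt (B : Bs J ω) (d : Hg N δ' β) (h : θ ^ 2 = -(δ' : O)) (hi : 0 < (J θ).im)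
    (e : 2 * η = θ - β) : ∃ y n, Dt J N 1 δ' β η y n := by
  obtain ⟨r, hr⟩ := d.rt
  refine ⟨_, 4 * N * r, d, rfl, B.eta d.sq h hi e, B.inj ?_, by linear_combination -hr, ⟨4 * r, by ring⟩,
    rfl⟩
  have h' : J θ ^ 2 = -δ' := by simpa using congrArg J h
  have e' : 2 * J η = J θ - β := by simpa [map_ofNat] using congrArg J e
  have : (β : ℂ) ^ 2 + δ' = 16 * N * r := by exact_mod_cast hr
  simp only [map_pow, map_sub, map_mul, map_intCast]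
  push_cast
  linear_combination (h' - this + (2 * J η + J θ + β) * e') / 4

namespace Dt

variable {y : ℂ} {n : ℤ} (D : Dt J N δ δ' β η y n)
include D

theorem pos : 0 < δ := by have := D.one; omega

theorem odd : Odd δ := D.one ▸ odd_one

theorem sq' : J η ^ 2 = -β * J η - n := by simpa using congrArg J D.sq

theorem ysq : y ^ 2 = -((δ : ℂ) * (δ * δ' : ℕ)) := by
  have : (4 : ℂ) * n = β ^ 2 + δ' := by exact_mod_cast D.n4
  rw [D.y2]
  push_cast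
  linear_combination (δ : ℂ) ^ 2 * (4 * D.sq' - this)

theorem fix {σ : ℂ ≃+* ℂ} (h : ∀ a, σ (J a) = J a) : σ y = y := by
  rw [D.y2, map_mul, map_add, map_mul, h, map_natCast, map_intCast, map_ofNat]

theorem root {l : Fm} {z : ℍ} (h : evq l z = 0) (a : 0 < l.1)
    (e : disc l = -((δ : ℤ) * (δ * δ' : ℕ))) : ∃ s : ℤ, l.2.1 = δ * β + 2 * s ∧
    δ * J η = l.1 * z + s ∧ l.1 * l.2.2 = δ ^ 2 * n + δ * β * s + s ^ 2 := by
  have k := root_im h a (y := y) (by rw [D.ysq, e]; push_cast; rfl) (by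
    simpa [D.y2] using mul_pos (Nat.cast_pos.2 D.pos) (mul_pos two_pos D.b.im))
  have p : (l.2.1 - δ * β) * (l.2.1 - δ * β + 2 * (δ * β)) = 4 * (l.1 * l.2.2 - δ ^ 2 * n) := by
    rw [disc] at e
    push_cast at e
    linear_combination e + (δ : ℤ) ^ 2 * D.n4
  obtain ⟨s, hs⟩ : 2 ∣ l.2.1 - δ * β := by
    rcases Int.prime_two.dvd_or_dvd (Dvd.intro (2 * (l.1 * l.2.2 - δ ^ 2 * n))
      (by rw [p]; ring : _ = (l.2.1 - δ * β) * (l.2.1 - δ * β + 2 * (δ * β)))) with q | q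
    exacts [q, (dvd_add_left (dvd_mul_right _ _)).1 q]
  have hs' : (l.2.1 : ℂ) - δ * β = 2 * s := by exact_mod_cast hs
  refine ⟨s, by linear_combination hs, by linear_combination (k - D.y2 + hs') / 2, ?_⟩
  rw [hs] at p
  linarith

theorem cop {b : ℤ} (h : (N : ℤ) ∣ b - δ * β) : IsCoprime (N : ℤ) b := cop_of fun p hp a e => by
  have pp := Nat.prime_iff_prime_int.1 hp
  have a' := Int.natCast_dvd_natCast.1 a
  have k : (p : ℤ) ∣ δ' := by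
    rcases pp.dvd_or_dvd ((dvd_sub_right e).1 (a.trans h)) with q | q
    · exact absurd (Nat.dvd_gcd a' (Int.natCast_dvd_natCast.1 q)) (by
        rw [D.one]; simpa using hp.one_lt.ne')
    · exact (dvd_add_right (dvd_pow q two_ne_zero)).1 ((a.mul_left 16).trans D.d.rt)
  by_cases p2 : p = 2
  · have := D.d.m8
    subst p2
    omega
  · have := D.d.spl p hp p2 a'
    rw [J_dvd hp.one_lt k.neg_right] at this
    exact zero_ne_one this

variable [NeZero N]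

theorem bd_one (hC : CJ0) (hn : Cn N I) (hη : η ∈ I) {τ : ℍ} (h : Hp J N I δ τ) :
    Bd N δ δ' β τ = 1 := by
  have hN := NeZero.pos N
  obtain ⟨w, e, k⟩ := D.b.hp D.pos hN D.sq hn hη
  obtain ⟨γ, hγ, rfl⟩ := (at_uq hC hN k).1 h
  have n0 : 0 < n := by
    have := D.n4
    have := D.d.m8
    have := sq_nonneg β
    omega
  have dl : disc (δ ^ 2 * n, β * δ, 1) = -((δ : ℤ) * (δ * δ' : ℕ)) := by
    simp only [disc]
    push_cast
    linear_combination -(δ : ℤ) ^ 2 * D.n4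
  have dd : (δ : ℤ) ∣ disc (δ ^ 2 * n, β * δ, 1) := dl ▸ (dvd_mul_right _ _).neg_right
  rw [Bd, Zp_inv D.odd hγ, Zp_eq (l := (δ ^ 2 * n, β * δ, 1)) dl ?_
    (mul_pos (pow_pos (Nat.cast_pos.2 D.pos) 2) n0), P004Z.ph, if_pos ⟨D.dv.mul_left _, rfl, dd⟩,
    gc_eq D.odd (D.one ▸ squarefree_one) dd (x := 0) (y := 1) (by simpa [val] using isCoprime_one_left)]
  · simp [val]
  · simp only [evq]
    push_cast at e ⊢
    linear_combination ((δ : ℂ) * w) ^ 2 * D.sq' + (δ * w * J η - 1) * e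

theorem bd_cj (hC : CJ0) (hn : Cn N I) (hη : η ∈ I) {τ z : ℍ} (h : Hp J N I δ τ)
    {σ : ℂ ≃+* ℂ} (hσ : ∀ a, σ (J a) = J a) (e : Cj0 σ N τ z) : Bd N δ δ' β z = 1 := by
  have k := D.bd_one hC hn hη h
  have y := D.ysq
  have f := D.fix hσ
  obtain rfl := D.one
  exact ((P014T.Z.zg1 e _ _ (by simpa using y)).2.1 f).trans k

omit [NeZero N] in
theorem ideal (hC : CJ0) [CharZero O] {l : Fm} {z : ℍ} (h : evq l z = 0) (a : 0 < l.1)
    (e : disc l = -((δ : ℤ) * (δ * δ' : ℕ))) (p : Prm δ l) :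
    ∃ A, Cop δ A ∧ jL (lat z) = jL (st J A (Oc J δ)) := by
  obtain ⟨γ, co⟩ := rep (Nat.cast_ne_zero.2 D.pos.ne') p
  have d0 := root_neg h a.ne'
  have a1 := pos_fa d0 a γ
  have h1 : evq (fa l γ) (γ⁻¹ • z : ℍ) = 0 := by rwa [root_fa, smul_inv_smul]
  rw [← j_sl hC γ⁻¹]
  rw [← disc_fa l γ] at e d0
  generalize fa l γ = l at *
  generalize γ⁻¹ • z = z at *
  obtain ⟨s, e1, e2, e3⟩ := D.root h1 a1 e
  have c0 : 0 < l.2.2 := by
    rw [disc] at d0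
    nlinarith [sq_nonneg l.2.1]
  obtain ⟨m, hm⟩ := Int.eq_ofNat_of_zero_le c0.le
  have m0 : 0 < m := by omega
  rw [hm] at co e3
  obtain ⟨u, v, uv⟩ := id co
  have q : (η - (v * s : ℤ)) ^ 2 = (-β - 2 * (v * s) : ℤ) * (η - (v * s : ℤ)) -
      (n + β * (v * s) + (v * s) ^ 2 : ℤ) := by
    have := D.sq
    push_cast at this ⊢
    linear_combination this
  obtain ⟨A, hA, hη⟩ := (D.b.sub (v * s)).ex_cn q (m := m)
    ((co.pow_right (n := 2)).dvd_of_dvd_mul_left ⟨l.1 - δ * β * u * s - 2 * s ^ 2 * u + m * s ^ 2 * u ^ 2, by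
      linear_combination -e3 + (δ * β * s + s ^ 2 * (v * δ - u * m + 1)) * uv⟩)
  refine ⟨A, cop_int hA m0 co, (jL_hom (c := (z : ℂ)⁻¹) ⟨inv_ne_zero z.ne_zero, fun w => ?_⟩
    (isLat z)).symm⟩
  rw [(D.b.sub (v * s)).st_Oc D.pos m0 q hA hη, mem_ov, mem_lat]
  have z0 := z.ne_zero
  have m1 : (m : ℂ) ≠ 0 := by exact_mod_cast m0.ne'
  have uv' : (u : ℂ) * m + v * δ = 1 := by exact_mod_cast uv
  have e4 : δ * J η = -(m * (z : ℂ)⁻¹) - δ * β - s := by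
    rw [evq, e1, hm] at h1
    rw [e2]
    push_cast at h1
    field_simp
    linear_combination h1
  have e5 : (δ * (((-β - 2 * (v * s) : ℤ) : ℂ) - J (η - (v * s : ℤ))) / m) = (z : ℂ)⁻¹ + u * s := by
    rw [map_sub, map_intCast, div_eq_iff m1]
    push_cast
    linear_combination -e4 - s * uv'
  rw [e5, D.b.Oc_eq D.pos]
  simp only [mem_lat, D.b.coe, e4]
  constructor
  · rintro ⟨p, q, rfl⟩
    exact ⟨q, 0, p - q * u * s, by push_cast; field_simp; ring⟩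
  · rintro ⟨a, p, q, k⟩
    refine ⟨q + a * u * s - p * (δ * β + s), a - p * m, mul_left_cancel₀ (inv_ne_zero z0) ?_⟩
    push_cast
    linear_combination k + (q + a * u * s - p * (δ * β + s) : ℂ) * inv_mul_cancel₀ z0

theorem at_z (hn : Cn N I) (hη : η ∈ I) {z : ℍ} (h : Bd N δ δ' β z ≠ 0)
    (E : ∀ a, (∀ w ∈ lat z, J a * w ∈ lat z) ↔ J a ∈ Oc J δ) :
    At N (lat z) (st J I (lat z)) z := by
  have hN := NeZero.pos N
  have h0 : (N : ℂ) ≠ 0 := by exact_mod_cast hN.ne'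
  obtain ⟨l, e, r, a, p⟩ := Zp_ne h
  obtain ⟨⟨a', ha⟩, p2, -⟩ := ph_ne p
  obtain ⟨s, e1, e2, -⟩ := D.root r a e
  obtain ⟨s', hs⟩ : ((2 * N : ℕ) : ℤ) ∣ l.2.1 - β * δ :=
    (ZMod.intCast_eq_intCast_iff_dvd_sub _ _ _).1 p2.symm
  have co := D.cop (b := l.2.1) ⟨2 * s', by push_cast at hs; linear_combination hs⟩
  obtain rfl : s = N * s' := by push_cast at hs; linarith
  rw [ha] at e2
  rw [evq, ha] at r
  push_cast at e2 r
  refine ⟨1, Hom.refl _, fun w => ?_⟩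
  rw [D.b.st_iff hn hη E]
  constructor
  · rintro ⟨h1, h2⟩
    obtain ⟨u, v, k⟩ := mem_lat.1 h1
    obtain ⟨u, rfl⟩ := co.dvd_of_dvd_mul_left ((div_mem hN (a := l.2.1 * u) (b := l.2.2 * u)).1
      (mem_of_eq (sub_mem (lat_mem (a' * v + s' * u) (s' * v)) h2) (by
        rw [e2]
        push_cast
        field_simp
        linear_combination u * r - (N * a' * z + N * s') * k))).1
    refine ⟨v, mem_lat.2 ⟨u, 0, ?_⟩⟩
    push_cast at k ⊢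
    field_simp
    linear_combination k
  · rintro ⟨p, k⟩
    refine ⟨mem_of_eq (add_mem (nat_mul_mem N k) (lat_mem 0 p)) (by push_cast; field_simp; ring),
      mem_of_eq (add_mem ((E (δ * η)).2 (by simpa using c_Oc η) _ k) (lat_mem (p * a') (p * s'))) ?_⟩
    rw [map_mul, map_natCast, e2]
    push_cast
    field_simp
    ring

end Dt

theorem bd_eq (N d : ℕ) (β : ℤ) : Bd N 1 d β = B0 N d β := by simp [Bd, B0]

/-- the divisor is the orbit -/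
theorem orb {K : Type} [Field K] [NumberField K] {j : K →+* Qb} (q : Iq K) {N : ℕ} [NeZero N]
    {δ' : ℕ} {β : ℤ} {θ η : 𝓞 K} {I : Ideal (𝓞 K)} (d : Hg N δ' β) (h : θ ^ 2 = -(δ' : 𝓞 K))
    (hi : 0 < (JJ j θ).im) (hn : Cn N I) (hη : η ∈ I) (e : 2 * η = θ - β)
    {T : Finset GQ} (hT1 : ∀ g ∈ T, g ∈ GK j) (hT2 : ∀ g ∈ GK j, ∃! h, h ∈ T ∧ g⁻¹ * h ∈ Hc j 1) :
    ∃ (τ : ℍ) (σ : GQ → ℂ ≃+* ℂ) (z : GQ → ℍ), Hp (JJ j) N I 1 τ ∧ (∀ g, Ex (σ g) g) ∧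
      (∀ g, Cj0 (σ g) N τ (z g)) ∧ Set.InjOn z T ∧ (∀ g ∈ T, Bd N 1 δ' β (z g) = 1) ∧
      Reps (Gamma0 N) (Bd N 1 δ' β) (T.image z) := by
  have hN := NeZero.pos N
  have hC := cj0
  obtain ⟨ω, B⟩ := bs Rc.iq q j
  obtain ⟨y, n, D⟩ := ex_dt B d h hi e
  obtain ⟨⟨τ, hp⟩, -, -, H, -⟩ := y_hg1 K j q N 1 I hN D.pos (Nat.coprime_one_left _) hn
  have b0 : ∀ z, Bd N 1 δ' β z ≠ 0 → ∃ g ∈ GK j, ∃ σ, Ex σ g ∧ Cj0 σ N τ z := fun z hz => by
    obtain ⟨l, e, r, a, p⟩ := Zp_ne hz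
    obtain ⟨A, hA, k⟩ := D.ideal hC r a e (prm_gc D.pos.ne' (ph_ne p).2.2.2)
    obtain ⟨g, ar⟩ := (x_rc2 K j q 1 D.pos).1 A hA
    obtain ⟨σ, ex⟩ := ex_ex g
    obtain ⟨ψ, t⟩ := tp_of_j jh (σ := σ) (B.lat D.pos) (isLat z)
      (by rw [ar_j x_rc1 q D.pos ex, ar.2, k])
    exact ⟨g, ar.1, σ, ex, (st_cj hN hp t (ex.JJ ar.1)).1
      (D.at_z hn hη hz fun a => (tp_end t (ex.JJ ar.1) a).trans end_Oc)⟩
  choose σ hσ using ex_ex
  choose z hz using fun g => (hC (σ g) N hN).1 τ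
  have k1 : ∀ g ∈ T, ∀ g' ∈ T, Cj0 (σ g) N τ (z g') → g = g' := fun g hg g' hg' c => by
    have := (H τ _ _ (mul_mem (inv_mem (hT1 g' hg')) (hT1 g hg)) hp ((hσ g').inv.mul (hσ g))).2
      ((hC _ N hN).2.2.2.2.1 _ _ _ _ c ((hC _ N hN).2.2.2.1 _ _ (hz g')))
    exact (hT2 g' (hT1 g' hg')).unique ⟨hg, this⟩ ⟨hg', by simp⟩
  have k2 : ∀ g ∈ T, Bd N 1 δ' β (z g) = 1 := fun g hg =>
    D.bd_cj hC hn hη hp ((hσ g).JJ (hT1 g hg)) (hz g)
  refine ⟨τ, σ, z, hp, hσ, hz, fun g hg g' hg' c => k1 g hg g' hg' (c ▸ hz g), k2,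
    Finset.forall_mem_image.2 fun g hg => k2 g hg ▸ one_ne_zero, fun v hv => ?_,
    Finset.forall_mem_image.2 fun g hg => Finset.forall_mem_image.2 fun g' hg' γ hγ c =>
      congrArg z (k1 g hg g' hg' (((hC _ N hN).2.2.1 _ _ _ (hz g)).2 ⟨γ, hγ, c⟩))⟩
  obtain ⟨g, hg, σ', ex, c⟩ := b0 v hv
  obtain ⟨g', ⟨m1, m2⟩, -⟩ := hT2 g hg
  have c1 := (hC _ N hN).2.2.2.2.1 _ _ _ _ ((H τ _ _ (mul_mem (inv_mem hg) (hT1 g' m1)) hp
    (ex.inv.mul (hσ g'))).1 m2) c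
  rw [mul_inv_cancel_left] at c1
  obtain ⟨γ, hγ, p⟩ := ((hC _ N hN).2.2.1 _ _ _ c1).1 (hz g')
  exact ⟨γ, hγ, p ▸ Finset.mem_image_of_mem z m1⟩

end Bg

open Bg P014T.Zd.Bx P014U

/-- **row BRG** -/
theorem brg [Pp] : BRG := fun e b T hT => by
  have : NeZero e.N := ⟨e.rn.pos.ne'⟩
  obtain ⟨τ, σ, z, hp, hσ, hz, inj, val, rep⟩ := orb b.iq b.dat b.th b.im b.ch.lev.cn b.mem b.eta
    hT.1 hT.2
  rw [bd_eq] at val rep
  have un := fun g => b.hg 1 one_pos (Nat.coprime_one_left _) g _ τ _ (hσ g) hp (hz g)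
  obtain ⟨⟨A, B, w, Λ, I, x, y, ex, par, p1, p2, p3, p4, p5, p6, p7, p8⟩, rfl, rfl, rfl, rfl, rfl⟩ :=
    pz_of e.rn e.par
  refine ⟨⟨_, _, _, _, _, x, y, ex, par, p1, p2, p3, p4, p5, p6, p7, p8⟩, _, pK b T, rfl, rfl, rep,
    ?_, fun _ => rfl⟩
  rw [P014T.Z.yK, Finset.sum_image inj, pK, map_sum]
  exact Finset.sum_congr rfl fun g hg => by
    rw [val g hg, one_smul]
    exact un_ex ⟨_, _, _, _, _, x, y, ex, par, p1, p2, p3, p4, p5, p6, p7, p8⟩ (un g)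

/-- **row GZF** -/
theorem gzf [Pp] (h1 : P014T.Z.GZX) (h0 : GZ0) : GZF := fun e b c V T hc pl hT => by
  obtain ⟨D, s, y, e1, e2, r, i, k⟩ := brg e b T hT
  rw [← k, ← e1]
  refine ⟨fun al v => ?_, fun al => h0 _ _ _ D _ _ s c V y e.rn al b.dat r (e2 ▸ hc) pl i⟩
  obtain ⟨y', i', -, f⟩ := h1 _ _ _ D _ _ s c V e.rn al v b.dat r (e2 ▸ hc) pl
  rwa [P004M.TE.pm_inj _ _ _ (i.trans i'.symm)]

end Vale.Agent.P014Y.Kt
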