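import Vale.Agent.P014U.St
import Vale.Agent.P014Y.Kt.Jx
import Vale.Agent.P014T.Lc.V2
import Vale.Agent.P014U.Sh.Br
import Vale.Agent.P014T.Ht.Can
import Vale.Agent.P004R.Mu0

/-! # P014Y, block KTOP: the numbers of one curve -/

set_option linter.all false

open NumberField Polynomial
open scoped Classical NumberTheorySymbols

noncomputable section

namespace Vale.Agent.P014Y.Kt

open Vale.Agent.P014U
open Vale.Agent.P014 (realPeriod torsionOrder shaPrimary)
open Vale.Agent.P014T (IsBasisModTorsion regulator)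
open Vale.Agent.P022 (Qb GQ IsConj)
open Vale.Agent.P022D.W (dec)
open P004N (cE)
open P004N.T8 (inc)
open P004N.H169 (IsLh)
open P004M.TE (Pt ga)
open P014U.Top (sI Dis El)
open P014T.Lc (Wq tm np ell sh_ne md_sh tn_ne vol_tw)
open Kx (tl Pl Sh)

variable [Pp] {A B : ℤ} {S : Finset ℕ} {P : ℕ → Ideal (𝓞 Qb)} {c : GQ}

namespace On

theorem val_prod {f : ℕ → ℚ} (S : Finset ℕ) (h : ∀ p ∈ S, f p ≠ 0) :
    padicValRat pp (∏ p ∈ S, f p) = ∑ p ∈ S, padicValRat pp (f p) := by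
  induction S using Finset.induction_on with
  | empty => simp
  | insert q S m ih =>
    have k := fun p a => h p (Finset.mem_insert_of_mem a)
    rw [Finset.prod_insert m, Finset.sum_insert m, padicValRat.mul (h q (Finset.mem_insert_self _ _))
      (Finset.prod_ne_zero_iff.2 k), ih k]

theorem sha_pow (E : WeierstrassCurve ℚ) (h : Finite (shaPrimary E pp)) :
    ∃ k, Nat.card (shaPrimary E pp) = pp ^ k := by
  have : Finite (AddCommGroup.primaryComponent (P014.Sha E) pp) := h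
  exact (IsPGroup.iff_card (G := Multiplicative (AddCommGroup.primaryComponent (P014.Sha E) pp))).1
    fun x => x.toAdd.2.imp fun k a => Subtype.ext a

/-- quadratic residues are squares -/
theorem sqp {d : ℤ} (h : J(d | pp) = 1) : ∃ θ : ℚ_[pp], θ ^ 2 = d ∧ ‖θ‖ = 1 := by
  obtain ⟨x, e⟩ := ZMod.isSquare_of_jacobiSym_eq_one h
  obtain ⟨x, rfl⟩ := ZMod.intCast_surjective x
  have n : ¬ (pp : ℤ) ∣ d := P004R.Mu.nd_of pp_prime (.inr h)
  have a : (pp : ℤ) ∣ x ^ 2 - d := (ZMod.intCast_zmod_eq_zero_iff_dvd _ _).1 (by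
    push_cast; linear_combination -e)
  have u : ∀ {y : ℤ}, ¬ (pp : ℤ) ∣ y → ‖(y : ℤ_[pp])‖ = 1 := fun k =>
    le_antisymm (PadicInt.norm_le_one _) (not_lt.1 (mt (PadicInt.norm_int_lt_one_iff_dvd _).1 k))
  have b : ‖(x : ℤ_[pp])‖ = 1 := u fun k => n ((dvd_sub_right (dvd_pow k two_ne_zero)).1 a)
  obtain ⟨z, hz, -⟩ := hensels_lemma (p := pp) (F := (X ^ 2 - C (d : ℤ_[pp]) : ℤ_[pp][X]))
    (a := x) (by
      have := (PadicInt.norm_int_lt_one_iff_dvd (p := pp) _).2 a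
      simpa [b, PadicInt.isUnit_iff.1 unit_two, one_add_one_eq_two] using this)
  have e : (z : ℚ_[pp]) ^ 2 = d := by
    rw [← PadicInt.coe_intCast, ← PadicInt.coe_pow]
    simp only [map_sub, map_pow, aeval_X, aeval_C, Algebra.algebraMap_self_apply] at hz
    exact congrArg (fun x : ℤ_[pp] => (x : ℚ_[pp])) (sub_eq_zero.1 hz)
  refine ⟨_, e, ?_⟩
  rw [← sq_eq_sq₀ (norm_nonneg _) zero_le_one, ← norm_pow, e, one_pow]
  exact u n

end On

open On

/-- the exponent at `p` -/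
def vp (A B : ℤ) (p : ℕ) : ℕ := padicValNat pp (tm (Wq (sI A B)) p * np (sI A B) p)

theorem vp_tw {d : ℤ} (h : J(d | pp) = 1) (hD : El A B) (hD' : El (A * d ^ 2) (B * d ^ 3)) :
    vp (A * d ^ 2) (B * d ^ 3) pp = vp A B pp := by
  obtain ⟨θ, e, n⟩ := sqp h
  have m := md_sh (A * d ^ 2) (B * d ^ 3)
  rw [Int.cast_mul, Int.cast_mul, Int.cast_pow, Int.cast_pow] at m
  have := vol_tw (d := d) (θ := θ) (sh_ne hD) (sh_ne hD') (md_sh A B) m (by
      rintro z
      obtain rfl : d = 0 := by exact_mod_cast z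
      exact hD' (by simp)) (by simpa using e)
  rw [n, Rat.cast_one, norm_one, mul_one, mul_one, mul_one] at this
  exact congrArg _ (by exact_mod_cast this)

theorem one (h : Pl A B S P) (hc : IsConj c) {r : ℕ} {v : ℤ} (d : Dis (sI A B) S r v) :
    ∃ (L : ℂ → ℂ) (Q : Fin r → (Wq (sI A B)).toAffine.Point) (q : ℚ) (σ τ w : ℕ),
      IsLh (inc (∏ p ∈ S, p) (cE (Wq (sI A B)))) L ∧ analyticOrderAt L 1 = r ∧
      IsBasisModTorsion (Wq (sI A B)) Q ∧ q ≠ 0 ∧ iteratedDeriv r L 1 / (r.factorial : ℂ) =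
        q * (realPeriod (Wq (sI A B)) * regulator (Wq (sI A B)) Q : ℝ) ∧
      Sh A B S c (pp ^ σ) ∧ tl A B ⊤ = pp ^ τ ∧ ∏ p ∈ S.erase pp, tl A B (dec (P p)) = pp ^ w ∧
      padicValRat pp q + 1 + 2 * τ = v + σ + vp A B pp + w := by
  obtain ⟨L, Q, ρ, a1, a2, a3, a4, a5, rfl, a6⟩ := d
  have D : (sI A B).Δ ≠ 0 := sh_ne h.disc
  have := ell D
  have m : P014T.Sm.Md (Wq (sI A B)) A B 1 0 0 0 := md_sh A B
  obtain ⟨σ, hσ⟩ := sha_pow _ a4
  have t0 : (torsionOrder (Wq (sI A B)) : ℚ) ≠ 0 := Nat.cast_ne_zero.2 (P014T.Sm.tors_pos _).ne'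
  have n : ∀ p ∈ S, ((tm (Wq (sI A B)) p * np (sI A B) p : ℕ) : ℚ) ≠ 0 ∧ (p : ℚ) ≠ 0 := fun p a =>
    have := Fact.mk (h.ov p a).1
    ⟨Nat.cast_ne_zero.2 (tn_ne p D), Nat.cast_ne_zero.2 this.out.ne_zero⟩
  have n' := fun p a => div_ne_zero (n p a).1 (n p a).2
  have n0 := Finset.prod_ne_zero_iff.2 n'
  have s0 : (pp : ℚ) ^ σ ≠ 0 := pow_ne_zero _ (n _ h.two).2
  have v2 : padicValRat pp pp = 1 := padicValRat.self one_lt
  refine ⟨L, Q, ρ * pp ^ σ * (∏ p ∈ S, ((tm (Wq (sI A B)) p * np (sI A B) p : ℕ) : ℚ) / p) /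
    torsionOrder (Wq (sI A B)) ^ 2, σ, _, ∑ p ∈ S.erase pp, vp A B p, a1, a2, a3,
    div_ne_zero (mul_ne_zero (mul_ne_zero a5 s0) n0) (pow_ne_zero _ t0), ?_, fun T R l k => ?_,
    Bt.card_ag m, ?_, ?_⟩
  · rw [a6, hσ]
    push_cast
    ring
  · exact (Sh.card_sha m (fun l a b => by_contra fun z => k.bad l a z b) hc k.ov).symm.trans hσ
  · rw [← Finset.prod_pow_eq_pow_sum]
    exact Finset.prod_congr rfl fun p a => Jx.tl_odd D m (h.ov p (Finset.mem_of_mem_erase a))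
      (Finset.ne_of_mem_erase a)
  · rw [padicValRat.div (mul_ne_zero (mul_ne_zero a5 s0) n0) (pow_ne_zero _ t0),
      padicValRat.mul (mul_ne_zero a5 s0) n0, padicValRat.mul a5 s0, padicValRat.pow,
      padicValRat.pow, v2, val_prod _ n', ← Finset.add_sum_erase _ _ h.two,
      Finset.sum_congr rfl (g := fun p => (vp A B p : ℤ)) fun p a => by
        have b := Finset.mem_of_mem_erase a
        have := Fact.mk (h.ov p b).1
        rw [padicValRat.div (n p b).1 (n p b).2, padicValRat.of_nat, padicValRat.of_nat,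
          padicValNat_primes (Finset.ne_of_mem_erase a).symm, Nat.cast_zero, sub_zero, vp],
      padicValRat.div (n pp h.two).1 (n pp h.two).2, padicValRat.of_nat, padicValRat.of_nat,
      padicValRat.of_nat, padicValNat.self one_lt, vp]
    push_cast
    ring

end Vale.Agent.P014Y.Kt
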