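import Vale.Agent.P014Y.Kt.St
import Vale.Agent.P014Y.Kt.One
import Vale.Agent.P014Y.Kx.Kx
import Vale.Agent.P014Y.Kx.Tr1
import Vale.Agent.P014T.An.Mel
import Vale.Agent.P004F.Es.Tr

/-! # P014Y, block KTOP: the count -/

set_option linter.all false

open NumberField
open scoped Classical

noncomputable section

namespace Vale.Agent.P014Y.Kt

open Vale.Agent.P014U
open Vale.Agent.P022 (Qb GQ IsConj)
open Vale.Agent.P022D.W (dec)
open Vale.Agent.P022E.GW (Ov)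
open Vale.Agent.P014U.X4S.Ga (K)
open F (Crv Fld)
open P004F.Qx (Fk)
open P004K (RC1)
open P004M.TE (Pt ga)
open P014U.Top (sI Dis El)
open P014T.Lc (Wq ell sh_ne md_sh)
open P014T.Wm (Fx)
open P014T (Sm.up Sm.Md)
open Kx (KX KD Pl Pr2 tl jx fk_mul kap_ne kap_dvd tw_in)

variable [Pp]

/-- **row HP1** -/
theorem hp1 (r1 : RC1) : HP1 := fun _ b _ h => Kx.hp_one r1 b h

namespace Cn

theorem prod_S (e : Crv) : ∃ m, Nat.Coprime pp m ∧ e.S.prod = pp * m :=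
  ⟨_, Nat.coprime_list_prod_right_iff.2 fun p h =>
    let ⟨a, b⟩ := e.nd.mem_erase_iff.1 h
    (Nat.coprime_primes pp_prime (e.ov p b).1).2 a.symm, (List.prod_erase e.pm).symm⟩

theorem ex_tv (r1 : RC1) {e : Crv} (b : Fld e) {c : ℕ} (c0 : 0 < c) : ∃ T, b.Tv c T := by
  haveI := P022K.G2.cpt
  haveI := Subgroup.quotient_finite_of_isOpen _ (r1 _ b.j b.iq c c0).2.1
  obtain ⟨U, f⟩ := P004F.Es.ex_fr (Γ := b.Γ) (H := P004K.Hc b.j c) (ψ := fun _ => (1 : ℤ))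
    inf_le_left (fun _ _ _ _ => (one_mul _).symm) fun _ _ => rfl
  exact ⟨U, f.mem, f.rep⟩

theorem fk_hp {e : Crv} (b : Fld e) {T : Finset GQ} (hT : b.Tv 1 T) :
    Fk (e.P pp) (e.S.prod ^ 2) (b.hp T 1) := by
  have o := e.ov pp e.pm
  have z := fun y (r : ℤ) h => one_mul (e.S.prod ^ 2) ▸ fk_mul e.par.disc o (kap_ne e) (kap_dvd e)
    (y := y) h 0 (one_dvd r)
  obtain ⟨g, hg, -⟩ := hT.2 1 (one_mem _)
  refine Finset.sum_induction_nonempty _ _ (fun y y' a a' => ?_) ⟨g, hg.1⟩ fun g h =>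
    b.qx 1 one_pos (Nat.coprime_one_left _) g (hT.1 g h) pp e.pm
  simpa using (((F.Qx.fg _ _ e.par.disc _ o.2.1 fun z => pp_ne (by simpa [z] using o.2.2)).2.2.2.2.2
    _ (kap_ne e)).1 _ _ a (z _ (-1) a')).1

theorem ex_P {e : Crv} (b : Fld e) : ∃ P : ℕ → Ideal (𝓞 Qb), (∀ p ∈ e.S, P p = e.P p) ∧
    ∀ p ∈ e.S.toFinset ∪ b.δ'.primeFactors, Ov p (P p) := by
  choose! Q hQ using fun (q : ℕ) (h : q.Prime) => P004R.Mu.ex_pl h
  refine ⟨fun p => if p ∈ e.S then e.P p else Q p, fun p h => if_pos h, fun p h => ?_⟩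
  by_cases k : p ∈ e.S
  · simpa only [if_pos k] using e.ov p k
  · simpa only [if_neg k] using hQ p (Nat.prime_of_mem_primeFactors
      ((Finset.mem_union.1 h).resolve_left (mt List.mem_toFinset.1 k)))

theorem pl_tw {A B d : ℤ} {S S' : Finset ℕ} {P : ℕ → Ideal (𝓞 Qb)} (h : Pl A B S P) (d0 : d ≠ 0)
    (l : S ⊆ S') (o : ∀ p ∈ S', Ov p (P p)) (k : ∀ p : ℕ, p.Prime → p ∣ d.natAbs → p ∈ S') :
    Pl (A * d ^ 2) (B * d ^ 3) S' P := by
  have e : 4 * (A * d ^ 2) ^ 3 + 27 * (B * d ^ 3) ^ 2 = d ^ 6 * (4 * A ^ 3 + 27 * B ^ 2) := by ring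
  refine ⟨e ▸ mul_ne_zero (pow_ne_zero _ d0) h.disc, o, fun p a n z => ?_⟩
  have q := Nat.prime_iff_prime_int.1 a
  rw [e, mul_left_comm] at z
  exact (q.dvd_or_dvd z).elim (fun z => n (k p a (Int.natCast_dvd.1 (q.dvd_of_dvd_pow z))))
    (h.bad p a (mt (l ·) n))

theorem pl_e (e : Crv) {P : ℕ → Ideal (𝓞 Qb)} (o : ∀ p ∈ e.S.toFinset, Ov p (P p)) :
    Pl e.A e.B e.S.toFinset P :=
  ⟨e.par.disc, o, fun l h k z =>
    have k' := mt List.mem_toFinset.2 k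
    have p := Nat.prime_iff_prime_int.1 h
    (p.dvd_or_dvd z).elim (fun d => (p.dvd_or_dvd d).elim
      (fun d => e.ne_two k' ((Nat.prime_dvd_prime_iff_eq h Nat.prime_two).1 (by exact_mod_cast d)))
      fun d => e.ne_pp k' ((Nat.prime_dvd_prime_iff_eq h pp_prime).1 (by exact_mod_cast d)))
      (e.bad l h k').2.1⟩

/-- the curve and its twist -/
theorem pls {e : Crv} (b : Fld e) : ∃ P, (∀ p ∈ e.S, P p = e.P p) ∧
    Pl (e.A * 1 ^ 2) (e.B * 1 ^ 3) e.S.toFinset P ∧ Pl (e.A * (-b.δ') ^ 2) (e.B * (-b.δ') ^ 3)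
      (e.S.toFinset ∪ b.δ'.primeFactors) P := by
  obtain ⟨P, a, o⟩ := ex_P b
  have p1 := pl_e e fun p h => o p (Finset.mem_union_left _ h)
  exact ⟨P, a, by simpa using p1, pl_tw p1 (neg_ne_zero.2 (Int.natCast_ne_zero.2 b.pos.ne'))
    Finset.subset_union_left o fun p h d =>
      Finset.mem_union_right _ (h.mem_primeFactors (by simpa using d) b.pos.ne')⟩

theorem nrm_int {N : ℤ} (h : N ≠ 0) : ‖(N : K)‖ * pp ^ padicValInt pp N = 1 := by
  have := Ba.pos_r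
  rw [← Rat.cast_intCast, Padic.eq_padicNorm, padicNorm.eq_zpow_of_nonzero (Int.cast_ne_zero.2 h),
    padicValRat.of_int]
  simp [this.ne']

/-- the consequences of `Ord` -/
theorem ord {e : Crv} {b : Fld e} {d d' A B A' B' : ℤ} {S S' : Finset ℕ}
    (h : Ord b d d' A B A' B' S S') : ∃ P, (∀ p ∈ e.S, P p = e.P p) ∧ Pl A B S P ∧ Pl A' B' S' P ∧
      vp A' B' pp = vp A B pp ∧ (d = 1 ∧ d' = -b.δ' ∨ d = -b.δ' ∧ d' = 1) ∧ e.S.toFinset ⊆ S ∧
      e.S.toFinset ⊆ S' ∧ S ⊆ e.S.toFinset ∪ b.δ'.primeFactors ∧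
      S' ⊆ e.S.toFinset ∪ b.δ'.primeFactors := by
  obtain ⟨P, a, p1, p0⟩ := pls b
  have v : vp (e.A * (-b.δ') ^ 2) (e.B * (-b.δ') ^ 3) pp = vp (e.A * 1 ^ 2) (e.B * 1 ^ 3) pp := by
    rw [vp_tw (b.adm.spl pp e.pm pp_ne_two) e.par.disc p0.disc]
    simp
  have l : e.S.toFinset ⊆ e.S.toFinset ∪ b.δ'.primeFactors := Finset.subset_union_left
  obtain ⟨⟨rfl, rfl, rfl, rfl⟩ | ⟨rfl, rfl, rfl, rfl⟩, rfl, rfl, rfl, rfl⟩ := h
  exacts [⟨P, a, p1, p0, v, .inl ⟨rfl, rfl⟩, subset_rfl, l, l, subset_rfl⟩,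
    ⟨P, a, p0, p1, v.symm, .inr ⟨rfl, rfl⟩, l, subset_rfl, subset_rfl, l⟩]

end Cn

open Cn

/-- **the count** -/
theorem cnt (kx : KX) (kd : KD) (kan : KAN) (r1 : RC1) : CNT := by
  intro e b d d' A B A' B' v v' S S' ho di di'
  obtain ⟨T, hT⟩ := ex_tv r1 b one_pos
  obtain ⟨P, hP, p1, p0, Z, hd, l1, l0', u1, u0⟩ := ord ho
  obtain ⟨L, Q, q, σ, τ, w, a1, a2, a3, a4, a5, a6, a7, a8, a9⟩ := one p1 b.cc di
  obtain ⟨L', Q', q', σ', τ', w', b1, b2, b3, b4, b5, b6, b7, b8, b9⟩ := one p0 b.cc di'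
  have D : (sI A B).Δ ≠ 0 := sh_ne p1.disc
  have D' : (sI A' B').Δ ≠ 0 := sh_ne p0.disc
  have := ell D
  have := ell D'
  have h : Sm.Md (Wq (sI A B)) A B 1 0 0 0 := md_sh A B
  have fin : Finite (Fx A' B' ⊤) := by
    have := P014T.Sm.fin_tors (Wq (sI A' B'))
    have h' : Sm.Md (Wq (sI A' B')) A' B' 1 0 0 0 := md_sh A' B'
    exact .of_surjective (fun x : AddCommGroup.torsion _ => P014T.Sm.eqv h' x.1) fun y =>
      ⟨⟨_, P014T.Cn.basis_zero.1 b3 ((P014T.Sm.eqv h').symm y)⟩, AddEquiv.apply_symm_apply _ _⟩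
  obtain ⟨t, t', n, ht, ht', fk, fx, tor, eq⟩ := kan e b T d d' A B A' B' S S' h L L' Q hT ho a1 a2
    b1 b2 a3 fin
  have pR := Ba.pos_r
  have e2 : P pp = e.P pp := hP pp e.pm
  obtain ⟨ι, hι⟩ := Ah.ex_ind (p1.ov pp p1.two)
  obtain ⟨lg, k⟩ := Lc.ex_lk D h hι
  have rt : Sm.up h (Q 0) ∈ Fx A B ⊤ := fun g _ => P014T.Sm.ga_up h g _
  let r : Fx A B (dec (P pp)) := ⟨Sm.up h (Q 0), fun g _ => rt g trivial⟩
  obtain ⟨c1, c2⟩ := P014T.Cn.basis_one.1 a3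
  have nt : ¬ IsOfFinAddOrder r.1 := fun z => c1 ((P014T.Sm.upF_inj h).isOfFinAddOrder_iff.1 z)
  have gen : ∀ x ∈ Fx A B ⊤, ∃ n : ℤ, IsOfFinAddOrder (x - n • r.1) := fun x a => by
    obtain ⟨x, rfl⟩ := P014T.Sm.ex_up h fun g => a g trivial
    exact (c2 x).imp fun n z => by simpa using (Sm.up h).isOfFinAddOrder z
  have J := Jx.jx_one D h hι k (r₀ := r) rt nt gen
  have pr : Pr2 b A B A' B' P S S' (pp ^ σ) (pp ^ σ') := ⟨⟨d, d', t, t', ht, ht', hd⟩, hP, l1, l0',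
    u1, u0, p1, p0, ⟨_, rt, nt⟩, fin, fun z => by
      rw [z, Nat.cast_zero, zero_mul, zero_mul] at J
      exact (pow_pos pR _).ne J, a6, b6, pow_ne_zero _ pp_ne, pow_ne_zero _ pp_ne⟩
  refine ⟨fun ha => ?_, kd e b _ _ _ _ _ _ _ _ _ pr, fun R R' k k' => ⟨⟨_, rt, nt, gen⟩, fin,
    (a6 _ _ subset_rfl k).trans_ne pr.n1, (b6 _ _ subset_rfl k').trans_ne pr.n0⟩⟩
  obtain ⟨m, om, hR⟩ := prod_S e
  have m0 : m ≠ 0 := by
    rintro rfl
    exact one_lt.ne' (by simpa using om)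
  obtain ⟨π, hπ⟩ : ∃ π, P014T.Bt.p0 A B = 2 ^ π := by
    rw [P014T.Bt.p0]
    split_ifs
    exacts [⟨1, rfl⟩, ⟨0, rfl⟩]
  rw [iteratedDeriv_one, Nat.factorial_one, Nat.cast_one, div_one] at a5
  rw [iteratedDeriv_zero, Nat.factorial_zero, Nat.cast_one, div_one, P014T.Cn.reg_zero,
    mul_one] at b5
  have E : (2 * 2 ^ π * (pp * m) ^ 4 * (q * q') : ℚ) = (n * nd e : ℤ) ^ 2 := by
    have x1 := ((P014T.An.ord_le (a1.1 1 P014T.An.m1)).2.1.1 a2).2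
    have x2 := (P014T.An.ord_le (b1.1 1 P014T.An.m1)).1.1 b2
    rw [a5, b5, hR, hπ, Complex.ofReal_mul _ (P014.realPeriod _)] at eq
    rw [a5] at x1
    rw [b5] at x2
    have := mul_right_cancel₀ (mul_ne_zero (right_ne_zero_of_mul x1) (right_ne_zero_of_mul x2))
      (a := ((2 * 2 ^ π * (pp * m) ^ 4 * (q * q') : ℚ) : ℂ)) (c := (n * nd e) ^ 2) (by
        rw [← eq]; push_cast; ring)
    exact_mod_cast this
  have mq : (m : ℚ) ≠ 0 := Nat.cast_ne_zero.2 m0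
  have pq : (pp : ℚ) ≠ 0 := Nat.cast_ne_zero.2 pp_ne
  have N0 : n * nd e ≠ 0 := fun z => by
    rw [z] at E
    simp [m0, a4, b4, pp_ne] at E
  have V := congrArg (padicValRat pp) E
  have v2 : padicValRat pp 2 = 0 :=
    (padicValRat.of_nat (n := 2)).trans (congrArg _ (padicValNat.eq_zero_of_not_dvd not_dvd_two))
  rw [padicValRat.mul (by positivity) (mul_ne_zero a4 b4), padicValRat.mul a4 b4,
    padicValRat.mul (by positivity) (by positivity), padicValRat.mul two_ne_zero (by positivity),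
    padicValRat.pow, padicValRat.pow, padicValRat.pow, padicValRat.mul pq mq,
    padicValRat.of_nat (n := m), padicValRat.of_int,
    padicValNat.eq_zero_of_not_dvd (pp_prime.coprime_iff_not_dvd.1 om), v2,
    padicValRat.self one_lt] at V
  let y : Fx A B (dec (P pp)) := nd e • ⟨t (pK b T), fun g a => fx g (b.le pp e.pm (e2 ▸ a))⟩
  have hy : y.1 = t (b.hp T 1) := by rw [hp1 r1 e b T hT, map_zsmul]; rfl
  have i0 := fun x => (Fx A B (dec (P pp))).subtype_injective.isOfFinAddOrder_iff (x := x)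
  have l0 : lg r ≠ 0 := fun z => nt ((i0 _).2 ((k.ker D h hι r).1 z))
  have l1 : 2 * lg y = (n * nd e : ℤ) * lg r := by
    have := (k.ker D h hι (2 • y - (n * nd e) • r)).2 ((i0 _).1 (by
      convert tor.zsmul (i := nd e) using 1
      show 2 • nd e • t (pK b T) - (n * nd e) • Sm.up h (Q 0) = _
      module))
    rwa [map_sub, map_nsmul, map_zsmul lg (n * nd e), sub_eq_zero, nsmul_eq_mul, zsmul_eq_mul,
      Nat.cast_two] at this
  have k0 := kap_ne e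
  have F := fun κ => k.fk_iff hι (κ := κ) k0 ⟨m ^ 2, by rw [hR]; ring⟩ (y := y)
    (by rw [hy, e2, fk]; exact fk_hp b hT)
  have n2 : ‖(pp : K)‖ = (pp : ℝ)⁻¹ := Padic.norm_p
  obtain ⟨i, hi⟩ := Bt.ex_m (a := lg y) (fun z => mul_ne_zero (Int.cast_ne_zero.2 N0) l0
    (by rw [← l1, z, mul_zero])) ((F _ k0).1 (by rw [hy, e2, fk]; exact fk_hp b hT))
  have X := kx e b ha A B A' B' P _ _ _ _ i T pr hT (by
      rw [← fk, ← hy, ← e2, F _ (mul_ne_zero (pow_ne_zero _ pp_ne) k0), Nat.cast_mul, norm_mul,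
        ← hi, Nat.cast_pow, norm_pow, n2, mul_left_comm, ← mul_pow, inv_mul_cancel₀ pR.ne']
      simp)
  have J' : jx A B (dec (P pp)) * pp ^ (τ + padicValInt pp (n * nd e)) =
      pp ^ (vp A B pp + i + 1) := by
    have u := congrArg norm l1
    have u' := nrm_int N0
    rw [norm_mul, norm_mul, norm_two, one_mul] at u
    rw [hR, Nat.cast_pow, Nat.cast_mul, norm_pow, norm_mul, n2,
      Padic.norm_natCast_eq_one_iff.2 om, mul_one, inv_pow, ← mul_inv_eq_one₀ (by positivity),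
      inv_inv] at hi
    rw [a7, Rat.cast_one, one_mul, Nat.cast_pow] at J
    refine Nat.cast_injective (R := ℝ) ?_
    rw [vp]
    push_cast at J ⊢
    rw [pow_add, pow_add, pow_add, ← J]
    linear_combination (jx A B (dec (P pp)) * pp ^ τ : ℝ) * (-pp ^ padicValInt pp (n * nd e) * hi +
      pp ^ 2 * pp ^ i * pp ^ padicValInt pp (n * nd e) * u + pp ^ 2 * pp ^ i * ‖lg r‖ * u')
  have Y : pp ^ (2 * i + 2 * τ' + 2 * (τ + padicValInt pp (n * nd e))) ≤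
      pp ^ (2 * (vp A B pp + i + 1) + σ + σ' + w + w') := by
    rw [b7, a8, b8] at X
    calc _ = pp ^ (2 * i) * (pp ^ τ') ^ 2 * (pp ^ (τ + padicValInt pp (n * nd e))) ^ 2 := by ring
      _ ≤ _ := Nat.mul_le_mul_right _ X
      _ = (jx A B (dec (P pp)) * pp ^ (τ + padicValInt pp (n * nd e))) ^ 2 * pp ^ σ *
          pp ^ σ' * pp ^ w * pp ^ w' := by ring
      _ = _ := by rw [J']; ring
  have := (Nat.pow_le_pow_iff_right one_lt).1 Y
  omega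

end Vale.Agent.P014Y.Kt
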