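import Vale.Agent.P014Y.St0
import Vale.Agent.P014Y.Kx.St
import Vale.Agent.P014U.St
import Vale.Agent.P014T.Zd.St

/-! # P014Y, block KTOP: words and rows -/

set_option autoImplicit false
set_option linter.all false

open Complex UpperHalfPlane CongruenceSubgroup
open scoped Real Classical

noncomputable section

namespace Vale.Agent.P014Y.Kt

open Vale.Agent.P014U Vale.Agent.P014U.Top
open Vale.Agent.P014 (realPeriod)
open Vale.Agent.P014T (IsBasisModTorsion regulator)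
open Vale.Agent.P022 (GQ)
open F (Crv Fld)
open P004F.Qx (Fk)
open P004N (cE ALw RN)
open P004N.T8 (inc)
open P004N.H169 (IsLh)
open P004M.TE (Pt ga Cv)
open P004Z (Van1 Reps)
open P004Z.Ar (Pz)
open P004Z.H (PlC iE hh)
open P014T.Lc (Wq)
open P014T.Wm (Fx)
open P014T.Z (Cov L0 L1 Hg B0 yK)
open P014T.Zd (L1d)
open Kx (Tw)

/-- **Gross-Zagier for a curve with sign `+1`** (block Z2) -/
def GZ0 : Prop := ∀ (N : ℕ) G a (D : Pz N a) (d : ℕ) (β : ℤ) s₀ (c : ℝ) V y, RN N G a →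
  ALw N N G (-1) → Hg N d β → Reps (Gamma0 N) (B0 N d β) s₀ → Cov D.Λ c → PlC V →
  iE y = yK D (B0 N d β) s₀ →
  (2 * D.w ^ 2 * c * hh (P014T.Gl.vq V) y : ℝ) = π ^ 2 * (√d : ℝ) * L0 a 1 * L1d a d

variable [Pp]

/-- the Heegner point of the frame -/
def pK {e : Crv} (b : Fld e) (T : Finset GQ) : Pt e.A e.B := ∑ g ∈ T, ga g (b.Y 1)

/-- the factor of the depletion -/
def nd (e : Crv) : ℤ :=
  (e.w * e.S.prod : ℕ) * (e.S.map fun p => p - e.a p + if p ∣ e.N then 0 else 1).prod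

/-- the depletion multiplies the trace by `nd` -/
def HP1 : Prop := ∀ (e : Crv) (b : Fld e) T, b.Tv 1 T → b.hp T 1 = nd e • pK b T

/-- the point of the frame on the upper half plane -/
def BRG : Prop := ∀ (e : Crv) (b : Fld e) T, b.Tv 1 T → ∃ (D : Pz e.N e.a) (s₀ : Finset ℍ)
  (y : (Cv P022.Qb (D.A : ℚ) (D.B : ℚ)).Point), D.w = e.w ∧ D.Λ = e.Λ ∧
  Reps (Gamma0 e.N) (B0 e.N b.δ' b.β) s₀ ∧ iE y = yK D (B0 e.N b.δ' b.β) s₀ ∧
  ∀ V, hh (P014T.Gl.vq V) y = hh (P014T.Gl.vq V) (pK b T)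

/-- the formula for the point of the frame, both signs -/
def GZF : Prop := ∀ (e : Crv) (b : Fld e) (c : ℝ) V T, Cov e.Λ c → PlC V → b.Tv 1 T →
  (ALw e.N e.N e.G 1 → Van1 e.a 1 → (2 * e.w ^ 2 * c * hh (P014T.Gl.vq V) (pK b T) : ℝ) =
    π ^ 2 * (√b.δ' : ℝ) * L1 e.a * L0 e.a b.δ') ∧
  (ALw e.N e.N e.G (-1) → (2 * e.w ^ 2 * c * hh (P014T.Gl.vq V) (pK b T) : ℝ) =
    π ^ 2 * (√b.δ' : ℝ) * L0 e.a 1 * L1d e.a b.δ')

/-- the curve and its twist by the field, in any order -/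
structure Ord {e : Crv} (b : Fld e) (d d' A B A' B' : ℤ) (S S' : Finset ℕ) : Prop where
  or : d = 1 ∧ d' = -b.δ' ∧ S = e.S.toFinset ∧ S' = e.S.toFinset ∪ b.δ'.primeFactors ∨
    d = -b.δ' ∧ d' = 1 ∧ S = e.S.toFinset ∪ b.δ'.primeFactors ∧ S' = e.S.toFinset
  a : A = e.A * d ^ 2
  b : B = e.B * d ^ 3
  a' : A' = e.A * d' ^ 2
  b' : B' = e.B * d' ^ 3

/-- the analytic half -/
def KAN : Prop := ∀ (e : Crv) (b : Fld e) T (d d' A B A' B' : ℤ) S S'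
  (h : P014T.Sm.Md (Wq (sI A B)) A B 1 0 0 0) L L' (Q : Fin 1 → (Wq (sI A B)).toAffine.Point),
  b.Tv 1 T → Ord b d d' A B A' B' S S' →
  IsLh (inc (∏ p ∈ S, p) (cE (Wq (sI A B)))) L → analyticOrderAt L 1 = 1 →
  IsLh (inc (∏ p ∈ S', p) (cE (Wq (sI A' B')))) L' → analyticOrderAt L' 1 = 0 →
  IsBasisModTorsion (Wq (sI A B)) Q → Finite (Fx A' B' ⊤) →
  ∃ (t : Pt e.A e.B ≃+ Pt A B) (t' : Pt e.A e.B ≃+ Pt A' B') (n : ℤ), Tw d t ∧ Tw d' t' ∧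
    (∀ κ y, Fk (e.P pp) κ (t y) ↔ Fk (e.P pp) κ y) ∧ t (pK b T) ∈ Fx A B b.Γ ∧
    IsOfFinAddOrder (2 • t (pK b T) - n • P014T.Sm.up h (Q 0)) ∧
    2 * P014T.Bt.p0 A B * (e.S.prod : ℂ) ^ 4 * (deriv L 1 * L' 1) = (n * nd e) ^ 2 *
      (realPeriod (Wq (sI A B)) * regulator (Wq (sI A B)) Q * realPeriod (Wq (sI A' B')) : ℝ)

/-- **the count**: the inequality, the bound for the partner, the data for the parity -/
def CNT : Prop := ∀ (e : Crv) (b : Fld e) (d d' A B A' B' v v' : ℤ) S S', Ord b d d' A B A' B' S S' →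
  Dis (sI A B) S 1 v → Dis (sI A' B') S' 0 v' → (b.Lb → v + v' ≤ 0) ∧ b.Bd ∧
  ∀ P P', Kx.Pl A B S P → Kx.Pl A' B' S' P' → Top.Rk1 A B ∧ Finite (Fx A' B' ⊤) ∧
    Kx.sh A B S b.c P ≠ 0 ∧ Kx.sh A' B' S' b.c P' ≠ 0

end Vale.Agent.P014Y.Kt
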